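import Vale.Agent.P237.Quant.TailData.N27.tailN27P3Part0
import Vale.Agent.P237.Quant.TailData.N27.tailN27P3Part1
import Vale.Agent.P237.Quant.TailData.N27.tailN27P3Part2
import Vale.Agent.P237.Quant.TailData.N27.tailN27P3Part3

/-!
Tail calibration tailN27P3 in dimension 27. The check. Generated data, checked by the kernel.
-/

set_option maxRecDepth 100000
set_option linter.all false

namespace Vale.Agent.P237.Quant.TailData

open TailCert


/-- The calibration. -/
noncomputable def tailN27P3 : Cfg :=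
  tailN27P3Base.withIvals (List.flatten [tailN27P3L0, tailN27P3L1, tailN27P3L2, tailN27P3L3, tailN27P3L4, tailN27P3L5, tailN27P3L6, tailN27P3L7, tailN27P3L8, tailN27P3L9, tailN27P3L10, tailN27P3L11, tailN27P3L12, tailN27P3L13, tailN27P3L14])

theorem tailN27P3_parts : [tailN27P3L0, tailN27P3L1, tailN27P3L2, tailN27P3L3, tailN27P3L4, tailN27P3L5, tailN27P3L6, tailN27P3L7, tailN27P3L8, tailN27P3L9, tailN27P3L10, tailN27P3L11, tailN27P3L12, tailN27P3L13, tailN27P3L14].Forall fun l => tailN27P3Base.partUsed tailN27P3Used l = true := by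
  simp only [List.forall_cons, List.Forall]
  exact ⟨tailN27P3L0_ok, tailN27P3L1_ok, tailN27P3L2_ok, tailN27P3L3_ok, tailN27P3L4_ok, tailN27P3L5_ok, tailN27P3L6_ok, tailN27P3L7_ok, tailN27P3L8_ok, tailN27P3L9_ok, tailN27P3L10_ok, tailN27P3L11_ok, tailN27P3L12_ok, tailN27P3L13_ok, tailN27P3L14_ok⟩

theorem tailN27P3_check : tailN27P3.check = true :=
  Cfg.check_of_parts (by decide +kernel) tailN27P3_parts

end Vale.Agent.P237.Quant.TailData
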